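import Vale.Agent.P280.H674.RegK

/-!
P280: the pole lemma modulo a frame of global fields; coefficients.
-/

namespace Vale.Agent.P280.H674

open DirectSum Matrix Vale.Agent.P280.T Vale.Agent.P280.H127 Vale.Agent.P280.H93
  Vale.Agent.P280.H899

set_option linter.unusedSectionVars false

variable {Λ R : Type} [AddCommGroup Λ] [DecidableEq Λ] [CommRing R] [IsDomain R] [Algebra ℂ R]
variable {K : Type} [Field K] [Algebra R K] [IsFractionRing R K] [Algebra ℂ K]
  [IsScalarTower ℂ R K]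
variable {𝒜 : Λ → Submodule ℂ R} [GradedAlgebra 𝒜]

section frame
variable {ι : Type} [Fintype ι] [DecidableEq ι] {w : ι → Derivation ℂ R R} {χ : ι → Λ}

theorem HomD.sb (hw : ∀ i k, ∀ h ∈ 𝒜 k, w i h ∈ 𝒜 (k - χ i)) {θ : Λ} {v : Derivation ℂ R K}
    (hv : HomD 𝒜 θ v) {g : ι → K} (hg : ∀ i, HomK 𝒜 (χ i - θ) (g i)) :
    HomD 𝒜 θ (sb v g w) := by
  intro k h hh
  rw [sb_apply]
  refine (hv k h hh).sub (HomK.sum _ fun i _ => ?_)
  refine ((hg i).mul (HomK.of_mem (hw i k h hh))).congr ?_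
  abel

/-- Cramer's rule -/
theorem cramer {h : ι → R} {v : Derivation ℂ R K} {g : ι → K}
    (hg : ∀ j, sb v g w (h j) = 0) (i : ι) :
    algebraMap R K (dmat w h).det * g i =
      ∑ j, v (h j) * algebraMap R K ((dmat w h).adjugate j i) := by
  have h1 : ∀ j, v (h j) = ∑ l, g l * algebraMap R K (w l (h j)) := by
    intro j
    have := hg j
    rw [sb_apply, sub_eq_zero] at this
    exact this
  have h2 : ∀ l, ∑ j, algebraMap R K (w l (h j)) * algebraMap R K ((dmat w h).adjugate j i) =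
      if l = i then algebraMap R K (dmat w h).det else 0 := by
    intro l
    have h3 := congrFun (congrFun (Matrix.mul_adjugate (dmat w h)) l) i
    rw [Matrix.mul_apply, Matrix.smul_apply, Matrix.one_apply] at h3
    simp_rw [← map_mul]
    rw [← map_sum]
    have h4 : ∑ x, w l (h x) * (dmat w h).adjugate x i =
      (dmat w h).det • (if l = i then 1 else 0) := h3
    rw [h4]
    split_ifs <;> simp
  calc algebraMap R K (dmat w h).det * g i
      = ∑ l, g l * ∑ j, algebraMap R K (w l (h j)) *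
          algebraMap R K ((dmat w h).adjugate j i) := by
        simp_rw [h2]
        simp [mul_comm]
    _ = ∑ j, (∑ l, g l * algebraMap R K (w l (h j))) *
          algebraMap R K ((dmat w h).adjugate j i) := by
        simp_rw [Finset.sum_mul, Finset.mul_sum]
        rw [Finset.sum_comm]
        exact Finset.sum_congr rfl fun l _ => Finset.sum_congr rfl fun j _ => by ring
    _ = _ := Finset.sum_congr rfl fun j _ => by rw [← h1]

/-- the normalised field is homogeneous -/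
theorem exists_norm_hom (hw : ∀ i k, ∀ h ∈ 𝒜 k, w i h ∈ 𝒜 (k - χ i)) {h : ι → R} {β : ι → Λ}
    (hh : ∀ j, h j ∈ 𝒜 (β j)) (hdet : (dmat w h).det ≠ 0) {θ : Λ} {v : Derivation ℂ R K}
    (hv : HomD 𝒜 θ v) :
    ∃ g : ι → K, (∀ j, H899.sb v g w (h j) = 0) ∧ ∀ i, HomK 𝒜 (χ i - θ) (g i) := by
  obtain ⟨g, hg⟩ := exists_norm w h hdet v
  refine ⟨g, hg, fun i => ?_⟩
  have hW : ∀ i j, dmat w h i j ∈ 𝒜 (β j - χ i) := fun i j => hw i _ _ (hh j)
  have h1 := cramer hg i
  have hd : algebraMap R K (dmat w h).det ≠ 0 := map_ne hdet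
  have h2 : g i = (algebraMap R K (dmat w h).det)⁻¹ *
      ∑ j, v (h j) * algebraMap R K ((dmat w h).adjugate j i) := by
    rw [← h1, inv_mul_cancel_left₀ hd]
  rw [h2, Finset.mul_sum]
  refine HomK.sum _ fun j _ => ?_
  refine (((HomK.of_mem (det_mem hW)).inv.mul
    ((hv _ _ (hh j)).mul (HomK.of_mem (adj_mem hW i j))))).congr ?_
  abel

theorem regF_coef {h : ι → R} {v : Derivation ℂ R K} {g : ι → K}
    (hg : ∀ j, sb v g w (h j) = 0) {q : R →ₐ[ℂ] ℂ} (hq : q (dmat w h).det ≠ 0) (hv : Reg q v)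
    (i : ι) : RegF q (g i) := by
  refine RegF.of_mul hq ?_
  rw [cramer hg i]
  exact RegF.sum _ fun j _ => (Reg.apply hv _).mul (RegF.of q _)

theorem smul_sb (f : K) (v : Derivation ℂ R K) (g : ι → K) :
    sb (f • v) (fun i => f * g i) w = f • sb v g w := by
  ext x
  rw [Derivation.smul_apply, sb_apply, sb_apply, Derivation.smul_apply, smul_eq_mul, smul_eq_mul,
    mul_sub, Finset.mul_sum]
  congr 1
  exact Finset.sum_congr rfl fun i _ => by ring

variable {q : R →ₐ[ℂ] ℂ} {n : ℕ} {u : Fin n → R} {wt : Fin n → Λ}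

/-- **Pole lemma modulo fields.** `v` has weight `θ` and is regular at `q` modulo the `w i` up to
poles along `u i0 = 0`; the fields `w i` are independent at `q`, seen on the parameters
`u (idx i)`; for the other parameters `wt i = θ - k wt i0 + ∑ m l wt l`, `k ≥ 1`, `m i0 = 0`, is
impossible. Then `v` is regular at `q` modulo the `w i`. -/
theorem regMod_of_pole [Algebra.FiniteType ℂ R] (hF : Fix 𝒜 q) (G : Gens 𝒜 q u wt)
    (hw : ∀ i k, ∀ h ∈ 𝒜 k, w i h ∈ 𝒜 (k - χ i)) (idx : ι → Fin n)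
    (hdet : q (dmat w (u ∘ idx)).det ≠ 0) {θ : Λ} {v : Derivation ℂ R K} (hv : HomD 𝒜 θ v)
    {i0 : Fin n} (hu0 : u i0 ≠ 0) (hex : ∃ k : ℕ, RegMod q w (algebraMap R K (u i0 ^ k) • v))
    (hnum : ∀ i, i ∉ Set.range idx → ∀ (k : ℕ) (m : Fin n → ℕ), 1 ≤ k → m i0 = 0 →
      wt i - θ + k • wt i0 ≠ ∑ l, m l • wt l) : RegMod q w v := by
  have hdet0 : (dmat w (u ∘ idx)).det ≠ 0 := by
    intro h0
    rw [h0, map_zero] at hdet
    exact hdet rfl
  obtain ⟨g, hg, hgh⟩ := exists_norm_hom hw (h := u ∘ idx) (β := wt ∘ idx)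
    (fun j => G.hom (idx j)) hdet0 hv
  refine (regMod_iff w _ v hg hdet).2 (reg_of_pole_K hF G (HomD.sb hw hv hgh) hu0 ?_ ?_)
  · obtain ⟨k, hk⟩ := hex
    refine ⟨k, ?_⟩
    have h1 : ∀ j, H899.sb (algebraMap R K (u i0 ^ k) • v)
        (fun i => algebraMap R K (u i0 ^ k) * g i) w ((u ∘ idx) j) = 0 := by
      intro j
      rw [smul_sb, Derivation.smul_apply, hg j, smul_zero]
    have h2 := (regMod_iff w _ _ h1 hdet).1 hk
    rwa [smul_sb] at h2
  · intro i
    by_cases hi : i ∈ Set.range idx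
    · obtain ⟨j, rfl⟩ := hi
      exact Or.inl (hg j)
    · exact Or.inr (hnum i hi)

/-- **Coefficients.** If `v` has weight `θ` and is regular at `q` modulo the `w i` and the
directions outside the `w i` are impossible, then `v` is a combination of the `w i`, with
homogeneous coefficients, which are regular at `q` if `v` is. -/
theorem exists_coef [Algebra.FiniteType ℂ R] (hF : Fix 𝒜 q) (G : Gens 𝒜 q u wt)
    (hw : ∀ i k, ∀ h ∈ 𝒜 k, w i h ∈ 𝒜 (k - χ i)) (idx : ι → Fin n)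
    (hdet : q (dmat w (u ∘ idx)).det ≠ 0) {θ : Λ} {v : Derivation ℂ R K} (hv : HomD 𝒜 θ v)
    (hreg : RegMod q w v)
    (hnum : ∀ i, i ∉ Set.range idx → ∀ m : Fin n → ℕ, wt i - θ ≠ ∑ l, m l • wt l) :
    ∃ g : ι → K, (∀ i, HomK 𝒜 (χ i - θ) (g i)) ∧ v = ∑ i, g i • (kd (w i) : Derivation ℂ R K) ∧
      (Reg q v → ∀ i, RegF q (g i)) := by
  have hdet0 : (dmat w (u ∘ idx)).det ≠ 0 := by
    intro h0
    rw [h0, map_zero] at hdet
    exact hdet rfl
  obtain ⟨g, hg, hgh⟩ := exists_norm_hom hw (h := u ∘ idx) (β := wt ∘ idx)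
    (fun j => G.hom (idx j)) hdet0 hv
  refine ⟨g, hgh, ?_, fun h i => regF_coef hg hdet h i⟩
  have h1 := zero_of_reg hF G (HomD.sb hw hv hgh) ((regMod_iff w _ v hg hdet).1 hreg) (by
    intro i
    by_cases hi : i ∈ Set.range idx
    · obtain ⟨j, rfl⟩ := hi
      exact Or.inl (hg j)
    · exact Or.inr (hnum i hi))
  unfold H899.sb at h1
  exact sub_eq_zero.1 h1

end frame

section func
variable {q : R →ₐ[ℂ] ℂ} {n : ℕ} {u : Fin n → R} {wt : Fin n → Λ}

/-- a homogeneous function regular at `q` is zero if its weight is impossible -/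
theorem zero_of_regF [IsNoetherianRing R] (hF : Fix 𝒜 q) (G : Gens 𝒜 q u wt) {η : Λ} {f : K}
    (hf : HomK 𝒜 η f) (hreg : RegF q f) (hnum : ∀ m : Fin n → ℕ, η ≠ ∑ l, m l • wt l) :
    f = 0 := by
  classical
  obtain ⟨r, hr, y, e⟩ := hreg
  -- a homogeneous denominator
  obtain ⟨k, a, ha, b, hb, hb0, e'⟩ := id hf
  have h1 : b * y = r * a := by
    apply map_inj (K := K)
    rw [map_mul, map_mul, ← e, ← e']
    ring
  have h2 : b * cp 𝒜 η y = cp 𝒜 0 r * a := by
    have h3 := congrArg (cp 𝒜 (k + η)) h1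
    rw [cp_mul_left 𝒜 hb, cp_mul_right 𝒜 ha, add_sub_cancel_left, sub_self] at h3
    exact h3
  let C : Set Λ := {w | ∃ m : Fin n → ℕ, w = η - ∑ l, m l • wt l}
  have hC0 : (0 : Λ) ∉ C := by
    rintro ⟨m, hm⟩
    exact hnum m (sub_eq_zero.1 hm.symm)
  have hCsub : ∀ w ∈ C, ∀ i, w - wt i ∈ C := by
    rintro w ⟨m, rfl⟩ j
    refine ⟨Function.update m j (m j + 1), ?_⟩
    have h4 : ∑ l, Function.update m j (m j + 1) l • wt l = ∑ l, m l • wt l + wt j := by
      rw [← Finset.add_sum_erase _ _ (Finset.mem_univ j),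
        ← Finset.add_sum_erase (a := j) Finset.univ (fun l => m l • wt l)
          (Finset.mem_univ j), Function.update_self, add_smul, one_smul]
      have h5 : ∑ l ∈ Finset.univ.erase j, Function.update m j (m j + 1) l • wt l =
          ∑ l ∈ Finset.univ.erase j, m l • wt l := by
        refine Finset.sum_congr rfl fun l hl => ?_
        rw [Function.update_of_ne (Finset.ne_of_mem_erase hl)]
      rw [h5]
      abel
    rw [h4]
    abel
  have h5 := source hF G hC0 hCsub (w := η) ⟨fun _ => 0, by simp⟩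
  have h6 := cp_mem 𝒜 η y
  rw [h5] at h6
  have h7 : cp 𝒜 η y = 0 := (Submodule.mem_bot ℂ).1 h6
  rw [h7, mul_zero] at h2
  have hcp : cp 𝒜 0 r ≠ 0 := by
    intro h
    have := hF.q_cp r
    rw [h, map_zero] at this
    exact hr this.symm
  have h8 : a = 0 := (mul_eq_zero.1 h2.symm).resolve_left hcp
  rw [h8, map_zero] at e'
  exact (mul_eq_zero.1 e').resolve_left (map_ne hb0)

/-- a homogeneous function with poles along `u i0 = 0` is regular if the weights forbid poles -/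
theorem regF_of_pole [IsNoetherianRing R] (hF : Fix 𝒜 q) (G : Gens 𝒜 q u wt) {η : Λ} {f : K}
    (hf : HomK 𝒜 η f) {i0 : Fin n} (hu0 : u i0 ≠ 0)
    (hex : ∃ k : ℕ, RegF q (algebraMap R K (u i0 ^ k) * f))
    (hnum : ∀ (k : ℕ) (m : Fin n → ℕ), 1 ≤ k → m i0 = 0 →
      η + k • wt i0 ≠ ∑ l, m l • wt l) : RegF q f := by
  classical
  have hmin : ∀ j, j < Nat.find hex → ¬ RegF q (algebraMap R K (u i0 ^ j) * f) :=
    fun j hj => Nat.find_min hex hj
  have hsp := Nat.find_spec hex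
  generalize Nat.find hex = k at hmin hsp
  rcases Nat.eq_zero_or_pos k with rfl | hk
  · rwa [pow_zero, map_one, one_mul] at hsp
  exfalso
  obtain ⟨k', rfl⟩ := Nat.exists_eq_succ_of_ne_zero hk.ne'
  apply hmin k' (Nat.lt_succ_self k')
  obtain ⟨r, hr, y, e⟩ := hsp
  have hu : HomK 𝒜 (η + (k' + 1) • wt i0) (algebraMap R K (u i0 ^ (k' + 1)) * f) := by
    have h1 : u i0 ^ (k' + 1) ∈ 𝒜 ((k' + 1) • wt i0) := SetLike.pow_mem_graded _ (G.hom i0)
    exact ((HomK.of_mem h1).mul hf).congr (add_comm _ _)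
  obtain ⟨k, a, ha, b, hb, hb0, e'⟩ := id hu
  have h1 : b * y = r * a := by
    apply map_inj (K := K)
    rw [map_mul, map_mul, ← e, ← e']
    ring
  set η' := η + (k' + 1) • wt i0 with hη'
  have h2 : b * cp 𝒜 η' y = cp 𝒜 0 r * a := by
    have h3 := congrArg (cp 𝒜 (k + η')) h1
    rw [cp_mul_left 𝒜 hb, cp_mul_right 𝒜 ha, add_sub_cancel_left, sub_self] at h3
    exact h3
  let C : Set Λ := {w | ∃ m : Fin n → ℕ, m i0 = 0 ∧ w = η' - ∑ l, m l • wt l}
  have hC0 : ∀ w ∈ C, w ≠ 0 := by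
    rintro w ⟨m, hm, rfl⟩ h2
    exact hnum (k' + 1) m (Nat.succ_pos k') hm (sub_eq_zero.1 h2)
  have hCsub : ∀ w ∈ C, ∀ i ∉ ({i0} : Set (Fin n)), w - wt i ∈ C ∧ w - wt i ≠ 0 := by
    rintro w ⟨m, hm, rfl⟩ j hj
    have hj' : j ≠ i0 := hj
    have h3 : η' - ∑ l, m l • wt l - wt j ∈ C := by
      refine ⟨Function.update m j (m j + 1), ?_, ?_⟩
      · rw [Function.update_of_ne hj'.symm, hm]
      · have h4 : ∑ l, Function.update m j (m j + 1) l • wt l = ∑ l, m l • wt l + wt j := by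
          rw [← Finset.add_sum_erase _ _ (Finset.mem_univ j),
            ← Finset.add_sum_erase (a := j) Finset.univ (fun l => m l • wt l)
              (Finset.mem_univ j), Function.update_self, add_smul, one_smul]
          have h5 : ∑ l ∈ Finset.univ.erase j, Function.update m j (m j + 1) l • wt l =
              ∑ l ∈ Finset.univ.erase j, m l • wt l := by
            refine Finset.sum_congr rfl fun l hl => ?_
            rw [Function.update_of_ne (Finset.ne_of_mem_erase hl)]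
          rw [h5]
          abel
        rw [h4]
        abel
    exact ⟨h3, hC0 _ h3⟩
  have hmem : η' ∈ C := ⟨fun _ => 0, rfl, by simp⟩
  obtain ⟨t, ht, ht'⟩ := lemmaA hF G (C := C) (J := {i0}) hCsub hmem (cp_mem 𝒜 η' y)
    (mem_mx.2 (hF _ (hC0 _ hmem) _ (cp_mem 𝒜 η' y)))
  rw [Set.image_singleton] at ht'
  obtain ⟨z, hz⟩ := Ideal.mem_span_singleton.1 ht'
  refine ⟨t * cp 𝒜 0 r, ?_, z, ?_⟩
  · rw [map_mul, ht, one_mul, hF.q_cp]
    exact hr
  · have h9 : algebraMap R K (u i0) ≠ 0 := map_ne hu0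
    apply mul_left_cancel₀ h9
    apply mul_left_cancel₀ (map_ne (K := K) hb0)
    have h10 : algebraMap R K b * (algebraMap R K (u i0) *
        (algebraMap R K (t * cp 𝒜 0 r) * (algebraMap R K (u i0 ^ k') * f))) =
        algebraMap R K (t * cp 𝒜 0 r) * (algebraMap R K b *
          (algebraMap R K (u i0 ^ (k' + 1)) * f)) := by
      rw [pow_succ, map_mul (algebraMap R K) (u i0 ^ k')]
      ring
    rw [h10, e', ← map_mul, ← map_mul, ← map_mul]
    congr 1
    calc t * cp 𝒜 0 r * a = t * (cp 𝒜 0 r * a) := by ring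
      _ = t * (b * cp 𝒜 η' y) := by rw [h2]
      _ = b * (t * cp 𝒜 η' y) := by ring
      _ = b * (u i0 * z) := by rw [hz]

end func

end Vale.Agent.P280.H674
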