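import Vale.Agent.P280.H83.Api3
import Vale.Agent.P280.H170.NL

/-! P280, plan N: Nakayama at a point. -/

open DirectSum Vale.Agent.P280.T Vale.Agent.P280.H127

namespace Vale.Agent.P280.H674

open scoped Pointwise

/-- Nakayama at the point `q`. -/
theorem nak {R : Type} [CommRing R] [Algebra ℂ R] [IsNoetherianRing R] (q : R →ₐ[ℂ] ℂ)
    (J I : Ideal R)
    (hJ : ∀ a ∈ J, ∃ s, q s ≠ 0 ∧ s * a ∈ I ⊔ (RingHom.ker q.toRingHom) • J) :
    ∃ s, q s = 1 ∧ ∀ a ∈ J, s * a ∈ I := by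
  have h1 : J ≤ I ⊔ (RingHom.ker q.toRingHom) • J := by
    intro a ha
    obtain ⟨s, hs, h2⟩ := hJ a ha
    have h3 : (s - algebraMap ℂ R (q s)) * a ∈ I ⊔ (RingHom.ker q.toRingHom) • J := by
      refine Submodule.mem_sup_right (Submodule.smul_mem_smul ?_ ha)
      rw [RingHom.mem_ker]
      change q _ = 0
      rw [map_sub, AlgHom.commutes]
      exact sub_self _
    have h4 : algebraMap ℂ R (q s) * a ∈ I ⊔ (RingHom.ker q.toRingHom) • J := by
      have h5 := sub_mem h2 h3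
      rwa [show s * a - (s - algebraMap ℂ R (q s)) * a = algebraMap ℂ R (q s) * a by ring] at h5
    have h6 := Ideal.mul_mem_left _ (algebraMap ℂ R (q s)⁻¹) h4
    rwa [← mul_assoc, ← map_mul, inv_mul_cancel₀ hs, map_one, one_mul] at h6
  obtain ⟨s, hs, h2⟩ := Submodule.exists_sub_one_mem_and_smul_le_of_fg_of_le_sup
    (IsNoetherian.noetherian J) le_rfl h1
  refine ⟨s, ?_, fun a ha => ?_⟩
  · rw [RingHom.mem_ker] at hs
    have h3 : q (s - 1) = 0 := hs
    rw [map_sub, map_one, sub_eq_zero] at h3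
    exact h3
  · exact h2 (Submodule.smul_mem_pointwise_smul a s J ha)

end Vale.Agent.P280.H674
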