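import Vale.Agent.P280.H340.Wall
import Vale.Agent.P280.H399.WallAB
import Vale.Agent.P280.H144.TwoX
import Vale.Agent.P280.H144.TwoW
import Vale.Agent.P280.H900.Polar
import Vale.Agent.P280.H495.U2

/-! P280, stage 2: the correction by a multiple of `E 0 L`, and its two applications. -/

open DirectSum Vale.Agent.P280.T Vale.Agent.P280.H127 Vale.Agent.P280.N Vale.Agent.P280.N.H989
open Vale.Agent.P280.N2

namespace Vale.Agent.P280.H674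

variable {r : ℕ} {R : Type} [CommRing R] [IsDomain R] [Algebra ℂ R]
  {𝒜 : ℕ × (Fin r → ℤ) → Submodule ℂ R} [GradedAlgebra 𝒜]
variable {N : ℤ} {n : ℕ} {f : Fin (n + 1) → Fin r → ℤ}
  {β : Fin (n + 1) → Fin (n + 1) → ((Fin r → ℤ) →+ ℤ)} {E F : Fin (n + 1) → Fin (n + 1) → VF R}
  {c : (Fin r → ℤ) →+ ℤ}

/-- A point whose only negative weight is `-b`. -/
def Wl (c : (Fin r → ℤ) →+ ℤ) (b : Fin r → ℤ) (q : FP 𝒜) : Prop :=
  q.Pi (-b) ∧ ∀ ψ, q.Pi ψ → ψ ≠ -b → 0 < c ψ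

theorem c_f0 (hA : AC 𝒜 N n f β E F) (hc : Ch2 𝒜 n f c) : 0 < c (f 0) := by
  have h1 := hc.pos
  have h2 := H144.c01 hA hc
  rw [map_sub] at h2
  omega

theorem fun0_pole (H : Hyp 𝒜) (hA : AC 𝒜 N n f β E F) (hv : NoVec 𝒜 n f) (hc : Ch2 𝒜 n f c)
    {x : FractionRing R} (hx : HK 𝒜 0 (f 0) x) (hx0 : x ≠ 0)
    (h0 : ∀ y0 : FP 𝒜, Pos c y0 → Rg y0.q x) :
    ∃ q : FP 𝒜, (Wl c (f 1) q ∨ Wl c (f 0 - f 1) q) ∧ ¬ Rg q.q x := by
  have hne : f 0 ≠ 0 := by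
    intro h
    have h1 := c_f0 hA hc
    rw [h, map_zero] at h1
    exact lt_irrefl _ h1
  obtain ⟨y, b, hyb, hcb, hoth, hn, hk⟩ := H399.lowest_fun H c hc.ne hne hx hx0 h0
  obtain ⟨d, z, hz⟩ := XF.exists_coord H y hyb
  obtain ⟨k, hk⟩ := hk d z hz
  obtain ⟨l, M, hl, hM, he⟩ := H900.xmon H y hz hx hk hn
  rw [zero_smul, zero_add] at he
  obtain ⟨-, ⟨rfl, -⟩ | ⟨rfl, -⟩⟩ := rel_fun0 H hA hv hc hyb hcb hoth hl hM he
  · exact ⟨y, Or.inl ⟨hyb, hoth⟩, hn⟩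
  · exact ⟨y, Or.inr ⟨hyb, hoth⟩, hn⟩

theorem fun1_pole (H : Hyp 𝒜) (hA : AC 𝒜 N n f β E F) (hv : NoVec 𝒜 n f) (hc : Ch2 𝒜 n f c)
    {x : FractionRing R} (hx : HK 𝒜 0 (f 1) x) (hx0 : x ≠ 0)
    (h0 : ∀ y0 : FP 𝒜, Pos c y0 → Rg y0.q x) :
    ∃ q : FP 𝒜, Wl c (f 1) q ∧ ¬ Rg q.q x := by
  have hne : f 1 ≠ 0 := by
    intro h
    have h1 := hc.pos
    rw [h, map_zero] at h1
    exact lt_irrefl _ h1
  obtain ⟨y, b, hyb, hcb, hoth, hn, hk⟩ := H399.lowest_fun H c hc.ne hne hx hx0 h0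
  obtain ⟨d, z, hz⟩ := XF.exists_coord H y hyb
  obtain ⟨k, hk⟩ := hk d z hz
  obtain ⟨l, M, hl, hM, he⟩ := H900.xmon H y hz hx hk hn
  rw [zero_smul, zero_add] at he
  obtain ⟨-, rfl, -⟩ := rel_fun1 H hA hv hc hyb hcb hoth hl hM he
  exact ⟨y, ⟨hyb, hoth⟩, hn⟩

/-- A function of weight `f 1` is regular at the wall `f 0 - f 1`. -/
theorem fun1_B (H : Hyp 𝒜) (hA : AC 𝒜 N n f β E F) (hv : NoVec 𝒜 n f) (hc : Ch2 𝒜 n f c)
    {x : FractionRing R} (hx : HK 𝒜 0 (f 1) x) (h0 : ∀ y0 : FP 𝒜, Pos c y0 → Rg y0.q x)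
    {q : FP 𝒜} (hq : Wl c (f 0 - f 1) q) : Rg q.q x := by
  by_contra hn
  obtain ⟨d, z, hz⟩ := XF.exists_coord H q hq.1
  obtain ⟨k, hk⟩ := H399.wallB_fun hA hv hc H hq.1 hq.2 hx h0 d z hz
  obtain ⟨l, M, hl, hM, he⟩ := H900.xmon H q hz hx hk hn
  rw [zero_smul, zero_add] at he
  exact f1_ne hA (rel_fun1 H hA hv hc hq.1 (H144.c01 hA hc) hq.2 hl hM he).2.1.symm

/-- The polar monomials of weight `f 0`. -/
theorem pol0 (H : Hyp 𝒜) (hA : AC 𝒜 N n f β E F) (hv : NoVec 𝒜 n f) (hc : Ch2 𝒜 n f c)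
    {q : FP 𝒜} {b : Fin r → ℤ} (hq : Wl c b q) (hcb : 0 < c b) :
    ∀ (l : ℕ) (M : List (Fin r → ℤ)), 1 ≤ l → (∀ ω ∈ M, q.Pi ω ∧ ω ≠ -b) →
      f 0 = (0 : ℤ) • q.ν + l • b + M.sum → l = 1 ∧ M.length ≤ 1 := by
  intro l M hl hM he
  rw [zero_smul, zero_add] at he
  obtain ⟨h1, ⟨-, rfl⟩ | ⟨-, rfl⟩⟩ := rel_fun0 H hA hv hc hq.1 hcb hq.2 hl hM he
  · exact ⟨h1, le_rfl⟩
  · exact ⟨h1, le_rfl⟩

/-- The polar monomials of weight `f 1`. -/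
theorem pol1 (H : Hyp 𝒜) (hA : AC 𝒜 N n f β E F) (hv : NoVec 𝒜 n f) (hc : Ch2 𝒜 n f c)
    {q : FP 𝒜} {b : Fin r → ℤ} (hq : Wl c b q) (hcb : 0 < c b) :
    ∀ (l : ℕ) (M : List (Fin r → ℤ)), 1 ≤ l → (∀ ω ∈ M, q.Pi ω ∧ ω ≠ -b) →
      f 1 = (0 : ℤ) • q.ν + l • b + M.sum → l = 1 ∧ M.length ≤ 1 := by
  intro l M hl hM he
  rw [zero_smul, zero_add] at he
  obtain ⟨h1, -, rfl⟩ := rel_fun1 H hA hv hc hq.1 hcb hq.2 hl hM he
  exact ⟨h1, by simp⟩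

/-- Fields regular at the source and at the two walls are global. -/
theorem glob_of_walls (H : Hyp 𝒜) (hA : AC 𝒜 N n f β E F) (hv : NoVec 𝒜 n f)
    (hc : Ch2 𝒜 n f c) {p : FP 𝒜} (hp : Pos c p) {v : VF R} (hvv : HV 𝒜 (-f (Fin.last n)) v)
    (hvp : RgV p.q v)
    (h1 : (∃ q : FP 𝒜, Wl c (f 1) q) → ∃ q : FP 𝒜, Wl c (f 1) q ∧ RgV q.q v)
    (h2 : (∃ q : FP 𝒜, Wl c (f 0 - f 1) q) → ∃ q : FP 𝒜, Wl c (f 0 - f 1) q ∧ RgV q.q v) :
    Glob v := by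
  by_contra hnot
  have hlam : -f (Fin.last n) ≠ 0 := by
    intro h
    have h3 := H144.cL hA hc
    rw [neg_eq_zero.1 h, map_zero] at h3
    exact lt_irrefl _ h3
  obtain ⟨y, b, hyb, hcb, hoth, hn, hk⟩ := H399.lowest_field H c hc.ne hlam hvv
    (fun y0 hy0 => A04.same_rgV H (pos_unique H c hc.ne hp hy0) hvv hvp) hnot
  have hb : b = f 1 ∨ b = f 0 - f 1 := by
    by_contra hb
    push Not at hb
    obtain ⟨ρ, g0, g1, hρ, -, hg0, -, hk0, -, -, hg1, he⟩ :=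
      H340.rm_wall H hA hv hc hyb hcb hoth hvv hk
    apply hn
    have h3 : g1 = 0 := hg1 fun h => hb.1 h.1
    have h4 : Rg y.q g0 := by
      by_contra h4
      obtain ⟨d, z, hz⟩ := XF.exists_coord H y hyb
      obtain ⟨k, hk⟩ := hk0 d z hz
      obtain ⟨l, M, hl, hM, he⟩ := H900.xmon H y hz hg0 hk h4
      rw [zero_smul, zero_add] at he
      obtain ⟨-, ⟨h5, -⟩ | ⟨h5, -⟩⟩ := rel_fun0 H hA hv hc hyb hcb hoth hl hM he
      · exact hb.1 h5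
      · exact hb.2 h5
    rw [he, h3, zero_smul, add_zero]
    exact hρ.add (RgV.smul h4 (hA.root 0 (Fin.last n) (H144.ne_L hA).1).globE.rgV)
  rcases hb with rfl | rfl
  · obtain ⟨q, hq, hr⟩ := h1 ⟨y, hyb, hoth⟩
    exact hn (A04.same_rgV H (H399.uniqA hA hv hc H hq.1 hq.2 hyb hoth) hvv hr)
  · obtain ⟨q, hq, hr⟩ := h2 ⟨y, hyb, hoth⟩
    exact hn (A04.same_rgV H (H399.uniqB hA hv hc H hq.1 hq.2 hyb hoth) hvv hr)

/-- **The correction.** -/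
theorem corr (H : Hyp 𝒜) (hA : AC 𝒜 N n f β E F) (hv : NoVec 𝒜 n f) (hc : Ch2 𝒜 n f c)
    {p : FP 𝒜} (hp : Pos c p) {v : VF R} (hvv : HV 𝒜 (-f (Fin.last n)) v) (hvp : RgV p.q v)
    (hvA : (∃ q : FP 𝒜, Wl c (f 1) q) → ∃ q : FP 𝒜, Wl c (f 1) q ∧
      ∃ (ρ : VF R) (g : FractionRing R), RgV q.q ρ ∧ HK 𝒜 0 (f 0) g ∧
        (∀ d z, Crd q (-f 1) d z → ∃ k : ℕ, Rg q.q ((iK z) ^ k * g)) ∧
        v = ρ + g • E 0 (Fin.last n)) :
    ∃ Y : FractionRing R, HK 𝒜 0 (f 0) Y ∧ Rg p.q Y ∧ Glob (v - Y • E 0 (Fin.last n)) := by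
  have h0L := (H144.ne_L hA).1
  have hr0 := hA.root 0 (Fin.last n) h0L
  have hc1 : 0 < c (f 1) := hc.pos
  have hc01 := H144.c01 hA hc
  have hps : ∀ {m : Fin r → ℤ} {x : FractionRing R}, HK 𝒜 0 m x → Rg p.q x →
      ∀ y0 : FP 𝒜, Pos c y0 → Rg y0.q x := fun hx hr y0 hy0 =>
    A04.same_rg H (pos_unique H c hc.ne hp hy0) hx hr
  -- it is enough to correct at the two walls
  suffices key : ∃ Y : FractionRing R, HK 𝒜 0 (f 0) Y ∧ Rg p.q Y ∧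
      ((∃ q : FP 𝒜, Wl c (f 1) q) → ∃ q : FP 𝒜, Wl c (f 1) q ∧
        RgV q.q (v - Y • E 0 (Fin.last n))) ∧
      ((∃ q : FP 𝒜, Wl c (f 0 - f 1) q) → ∃ q : FP 𝒜, Wl c (f 0 - f 1) q ∧
        RgV q.q (v - Y • E 0 (Fin.last n))) by
    obtain ⟨Y, hY, hYp, hYA, hYB⟩ := key
    refine ⟨Y, hY, hYp, glob_of_walls H hA hv hc hp ?_ ?_ hYA hYB⟩
    · exact hvv.sub ((HV.smul hY hr0.hvE).cast (by abel))
    · exact hvp.sub (RgV.smul hYp hr0.globE.rgV)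
  -- the form of `v` at the wall `f 0 - f 1`
  have hvB : ∀ q : FP 𝒜, Wl c (f 0 - f 1) q →
      ∃ (ρ : VF R) (g : FractionRing R), RgV q.q ρ ∧ HK 𝒜 0 (f 0) g ∧
        (∀ d z, Crd q (-(f 0 - f 1)) d z → ∃ k : ℕ, Rg q.q ((iK z) ^ k * g)) ∧
        v = ρ + g • E 0 (Fin.last n) := by
    intro q hq
    obtain ⟨ρ, g0, g1, hρ, -, hg0, -, hk0, -, -, hg1, he⟩ :=
      H340.rm_wall H hA hv hc hq.1 hc01 hq.2 hvv
        (H399.wallB_field hA hv hc H hq.1 hq.2 hvv fun y0 hy0 =>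
          A04.same_rgV H (pos_unique H c hc.ne hp hy0) hvv hvp)
    refine ⟨ρ, g0, hρ, hg0, hk0, ?_⟩
    rw [he, hg1 (fun h => f1_ne hA h.1.symm), zero_smul, add_zero]
  -- how to conclude from a correction of `g`
  have fin : ∀ {q : FP 𝒜} {ρ : VF R} {g Y : FractionRing R}, RgV q.q ρ →
      v = ρ + g • E 0 (Fin.last n) → Rg q.q (g - Y) → RgV q.q (v - Y • E 0 (Fin.last n)) := by
    intro q ρ g Y hρ he hg
    have h1 : v - Y • E 0 (Fin.last n) = ρ + (g - Y) • E 0 (Fin.last n) := by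
      rw [he]
      refine Derivation.ext fun x => ?_
      simp only [Derivation.coe_sub, Pi.sub_apply, Derivation.coe_add, Pi.add_apply,
        Derivation.coe_smul, Pi.smul_apply, smul_eq_mul]
      ring
    rw [h1]
    exact hρ.add (RgV.smul hg hr0.globE.rgV)
  by_cases hWA : ∃ q : FP 𝒜, Wl c (f 1) q
  · obtain ⟨qA, hqA, ρA, gA, hρA, hgA, hkA, heA⟩ := hvA hWA
    obtain ⟨dA, zA, hzA⟩ := XF.exists_coord H qA hqA.1
    have hp1 : p.Pi (f 1) := H144.wallA_src H hc hqA.1 hqA.2 hp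
    have hp0 : p.Pi (f 0) := H144.src_f0 H hA hc hp hp1
    by_cases hWB : ∃ q : FP 𝒜, Wl c (f 0 - f 1) q
    · obtain ⟨qB, hqB⟩ := hWB
      obtain ⟨ρB, gB, hρB, hgB, hkB, heB⟩ := hvB qB hqB
      obtain ⟨dB, zB, hzB⟩ := XF.exists_coord H qB hqB.1
      have hp01 : p.Pi (f 0 - f 1) := H144.wallB_src H hA hc hqB.1 hqB.2 hp
      have e01 : f 1 + (f 0 - f 1) = f 0 := by abel
      obtain ⟨x0, x1, xa, hx0, hx1, hxa, hr0', hr1, hra, -, hind⟩ :=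
        H144.fun_indep H p hp1 hp01 (by rwa [e01])
      rw [e01] at hx0
      have hy : HK 𝒜 0 (f 0) (x1 * xa) := (hx1.mul hxa).cast (by norm_num) e01
      have hry : Rg p.q (x1 * xa) := hr1.mul hra
      -- the two walls
      obtain ⟨α, α', hα, hYA⟩ := H900.polar_sym H qA c hqA.2 hzA hx0 hy
        (H399.wallA_fun hA hv hc H hqA.1 hqA.2 hx0 (hps hx0 hr0') dA zA hzA)
        (H399.wallA_fun hA hv hc H hqA.1 hqA.2 hy (hps hy hry) dA zA hzA)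
        (pol0 H hA hv hc hqA hc1)
      obtain ⟨γ, γ', hγ, hYB⟩ := H900.polar_sym H qB c hqB.2 hzB hx0 hy
        (H399.wallB_fun hA hv hc H hqB.1 hqB.2 hx0 (hps hx0 hr0') dB zB hzB)
        (H399.wallB_fun hA hv hc H hqB.1 hqB.2 hy (hps hy hry) dB zB hzB)
        (pol0 H hA hv hc hqB hc01)
      have hcomb : ∀ a a' : ℂ, HK 𝒜 0 (f 0) (a • x0 + a' • (x1 * xa)) ∧
          Rg p.q (a • x0 + a' • (x1 * xa)) := fun a a' =>
        ⟨(hx0.smul a).add (hy.smul a'), (hr0'.smul a).add (hry.smul a')⟩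
      have hne : ∀ a a' : ℂ, (a ≠ 0 ∨ a' ≠ 0) → a • x0 + a' • (x1 * xa) ≠ 0 := by
        intro a a' h h0
        have h1 := hind a a' h0
        rcases h with h | h
        · exact h h1.1
        · exact h h1.2
      have hpole : ∀ a a' : ℂ, (a ≠ 0 ∨ a' ≠ 0) → ¬ (Rg qA.q (a • x0 + a' • (x1 * xa)) ∧
          Rg qB.q (a • x0 + a' • (x1 * xa))) := by
        rintro a a' h ⟨h1, h2⟩
        obtain ⟨q, hq | hq, hn⟩ := fun0_pole H hA hv hc (hcomb a a').1 (hne a a' h)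
          (hps (hcomb a a').1 (hcomb a a').2)
        · exact hn (A04.same_rg H (H399.uniqA hA hv hc H hqA.1 hqA.2 hq.1 hq.2)
            (hcomb a a').1 h1)
        · exact hn (A04.same_rg H (H399.uniqB hA hv hc H hqB.1 hqB.2 hq.1 hq.2)
            (hcomb a a').1 h2)
      obtain ⟨s, hs⟩ := H900.polar_one H qA c hqA.2 hzA hgA (hcomb γ γ').1
        (hkA dA zA hzA)
        (H399.wallA_fun hA hv hc H hqA.1 hqA.2 (hcomb γ γ').1 (hps (hcomb γ γ').1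
          (hcomb γ γ').2) dA zA hzA)
        (pol0 H hA hv hc hqA hc1) (fun h => hpole γ γ' hγ ⟨h, hYB⟩)
      obtain ⟨t, ht⟩ := H900.polar_one H qB c hqB.2 hzB hgB (hcomb α α').1
        (hkB dB zB hzB)
        (H399.wallB_fun hA hv hc H hqB.1 hqB.2 (hcomb α α').1 (hps (hcomb α α').1
          (hcomb α α').2) dB zB hzB)
        (pol0 H hA hv hc hqB hc01) (fun h => hpole α α' hα ⟨hYA, h⟩)
      refine ⟨s • (γ • x0 + γ' • (x1 * xa)) + t • (α • x0 + α' • (x1 * xa)),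
        ((hcomb γ γ').1.smul s).add ((hcomb α α').1.smul t),
        ((hcomb γ γ').2.smul s).add ((hcomb α α').2.smul t),
        fun _ => ⟨qA, hqA, fin hρA heA ?_⟩, fun _ => ⟨qB, hqB, fin hρB heB ?_⟩⟩
      · rw [← sub_sub]
        exact hs.sub (hYA.smul t)
      · rw [add_comm, ← sub_sub]
        exact ht.sub (hYB.smul s)
    · -- only the wall `f 1`
      obtain ⟨x0, hx0, hr0', hne⟩ := H144.exists_fun H p hp0
      have hn : ¬ Rg qA.q x0 := by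
        intro h
        obtain ⟨q, hq | hq, hn⟩ := fun0_pole H hA hv hc hx0 hne (hps hx0 hr0')
        · exact hn (A04.same_rg H (H399.uniqA hA hv hc H hqA.1 hqA.2 hq.1 hq.2) hx0 h)
        · exact hWB ⟨q, hq⟩
      obtain ⟨s, hs⟩ := H900.polar_one H qA c hqA.2 hzA hgA hx0 (hkA dA zA hzA)
        (H399.wallA_fun hA hv hc H hqA.1 hqA.2 hx0 (hps hx0 hr0') dA zA hzA)
        (pol0 H hA hv hc hqA hc1) hn
      exact ⟨s • x0, hx0.smul s, hr0'.smul s, fun _ => ⟨qA, hqA, fin hρA heA hs⟩,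
        fun h => absurd h hWB⟩
  · by_cases hWB : ∃ q : FP 𝒜, Wl c (f 0 - f 1) q
    · obtain ⟨qB, hqB⟩ := hWB
      obtain ⟨ρB, gB, hρB, hgB, hkB, heB⟩ := hvB qB hqB
      obtain ⟨dB, zB, hzB⟩ := XF.exists_coord H qB hqB.1
      by_cases hreg : Rg qB.q gB
      · exact ⟨0, HK.zero le_rfl, Rg.zero, fun h => absurd h hWA,
          fun _ => ⟨qB, hqB, fin hρB heB (by rwa [sub_zero])⟩⟩
      · obtain ⟨k, hk⟩ := hkB dB zB hzB
        obtain ⟨l, M, hl, hM, he⟩ := H900.xmon H qB hzB hgB hk hreg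
        rw [zero_smul, zero_add] at he
        have hB1 : qB.Pi (f 1) := by
          obtain ⟨-, ⟨h5, -⟩ | ⟨-, rfl⟩⟩ := rel_fun0 H hA hv hc hqB.1 hc01 hqB.2 hl hM he
          · exact absurd h5.symm (f1_ne hA)
          · exact (hM (f 1) (List.mem_singleton.2 rfl)).1
        have hp0 : p.Pi (f 0) := (H144.wallB_f1 H hA hc hqB.1 hqB.2 hp).1 hB1
        obtain ⟨x0, hx0, hr0', hne⟩ := H144.exists_fun H p hp0
        have hn : ¬ Rg qB.q x0 := by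
          intro h
          obtain ⟨q, hq | hq, hn⟩ := fun0_pole H hA hv hc hx0 hne (hps hx0 hr0')
          · exact hWA ⟨q, hq⟩
          · exact hn (A04.same_rg H (H399.uniqB hA hv hc H hqB.1 hqB.2 hq.1 hq.2) hx0 h)
        obtain ⟨s, hs⟩ := H900.polar_one H qB c hqB.2 hzB hgB hx0 (hkB dB zB hzB)
          (H399.wallB_fun hA hv hc H hqB.1 hqB.2 hx0 (hps hx0 hr0') dB zB hzB)
          (pol0 H hA hv hc hqB hc01) hn
        exact ⟨s • x0, hx0.smul s, hr0'.smul s, fun h => absurd h hWA,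
          fun _ => ⟨qB, hqB, fin hρB heB hs⟩⟩
    · exact ⟨0, HK.zero le_rfl, Rg.zero, fun h => absurd h hWA, fun h => absurd h hWB⟩

end Vale.Agent.P280.H674
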