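import Vale.Agent.P280.H674.Pole
import Vale.Agent.P280.H899.Norm

/-!
P280: homogeneous rational functions and homogeneous rational fields.
-/

namespace Vale.Agent.P280.H674

open DirectSum Matrix Vale.Agent.P280.T Vale.Agent.P280.H127 Vale.Agent.P280.H93
  Vale.Agent.P280.H899

set_option linter.unusedSectionVars false

variable {Λ R : Type} [AddCommGroup Λ] [DecidableEq Λ] [CommRing R] [IsDomain R] [Algebra ℂ R]
variable {K : Type} [Field K] [Algebra R K] [IsFractionRing R K] [Algebra ℂ K]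
  [IsScalarTower ℂ R K]
variable {𝒜 : Λ → Submodule ℂ R} [GradedAlgebra 𝒜]

theorem map_inj {a b : R} (h : algebraMap R K a = algebraMap R K b) : a = b :=
  IsFractionRing.injective R K h

theorem map_ne {b : R} (hb : b ≠ 0) : algebraMap R K b ≠ 0 := fun h =>
  hb (map_inj (by rw [h, map_zero]))

/-- the rational function `f` is homogeneous of weight `w` -/
def HomK (𝒜 : Λ → Submodule ℂ R) (w : Λ) (f : K) : Prop :=
  ∃ k, ∃ a ∈ 𝒜 (k + w), ∃ b ∈ 𝒜 k, b ≠ 0 ∧ algebraMap R K b * f = algebraMap R K a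

/-- the rational field `v` is homogeneous of weight `θ` (it lowers weights by `θ`) -/
def HomD (𝒜 : Λ → Submodule ℂ R) (θ : Λ) (v : Derivation ℂ R K) : Prop :=
  ∀ k, ∀ h ∈ 𝒜 k, HomK 𝒜 (k - θ) (v h)

theorem HomK.of_mem {w : Λ} {a : R} (ha : a ∈ 𝒜 w) : HomK 𝒜 w (algebraMap R K a) :=
  ⟨0, a, by rwa [zero_add], 1, SetLike.GradedOne.one_mem, one_ne_zero, by rw [map_one, one_mul]⟩

theorem HomK.zero {w : Λ} : HomK 𝒜 w (0 : K) := by
  have h := HomK.of_mem (K := K) (Submodule.zero_mem (𝒜 w))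
  rwa [map_zero] at h

theorem HomK.one : HomK 𝒜 0 (1 : K) := by
  have h := HomK.of_mem (𝒜 := 𝒜) (K := K) (SetLike.GradedOne.one_mem : (1 : R) ∈ 𝒜 0)
  rwa [map_one] at h

theorem HomK.mul {w w' : Λ} {f f' : K} (h : HomK 𝒜 w f) (h' : HomK 𝒜 w' f') :
    HomK 𝒜 (w + w') (f * f') := by
  obtain ⟨k, a, ha, b, hb, hb0, e⟩ := h
  obtain ⟨k', a', ha', b', hb', hb0', e'⟩ := h'
  refine ⟨k + k', a * a', ?_, b * b', SetLike.mul_mem_graded hb hb', mul_ne_zero hb0 hb0', ?_⟩
  · have := SetLike.mul_mem_graded ha ha'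
    rwa [add_add_add_comm] at this
  · rw [map_mul, map_mul, ← e, ← e']
    ring

theorem HomK.add {w : Λ} {f f' : K} (h : HomK 𝒜 w f) (h' : HomK 𝒜 w f') :
    HomK 𝒜 w (f + f') := by
  obtain ⟨k, a, ha, b, hb, hb0, e⟩ := h
  obtain ⟨k', a', ha', b', hb', hb0', e'⟩ := h'
  refine ⟨k + k', a * b' + a' * b, ?_, b * b', SetLike.mul_mem_graded hb hb',
    mul_ne_zero hb0 hb0', ?_⟩
  · have h1 := SetLike.mul_mem_graded ha hb'
    have h2 := SetLike.mul_mem_graded ha' hb
    have e1 : k + w + k' = k + k' + w := by abel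
    have e2 : k' + w + k = k + k' + w := by abel
    rw [e1] at h1
    rw [e2] at h2
    exact Submodule.add_mem _ h1 h2
  · rw [map_add, map_mul, map_mul, map_mul, ← e, ← e']
    ring

theorem HomK.neg {w : Λ} {f : K} (h : HomK 𝒜 w f) : HomK 𝒜 w (-f) := by
  obtain ⟨k, a, ha, b, hb, hb0, e⟩ := h
  exact ⟨k, -a, Submodule.neg_mem _ ha, b, hb, hb0, by rw [mul_neg, e, map_neg]⟩

theorem HomK.sub {w : Λ} {f f' : K} (h : HomK 𝒜 w f) (h' : HomK 𝒜 w f') :
    HomK 𝒜 w (f - f') := by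
  rw [sub_eq_add_neg]
  exact h.add h'.neg

theorem HomK.sum {ι : Type} (s : Finset ι) {w : Λ} {f : ι → K} (h : ∀ i ∈ s, HomK 𝒜 w (f i)) :
    HomK 𝒜 w (∑ i ∈ s, f i) := by
  classical
  induction s using Finset.induction_on with
  | empty => rw [Finset.sum_empty]; exact HomK.zero
  | insert a s ha ih =>
    rw [Finset.sum_insert ha]
    exact (h a (Finset.mem_insert_self _ _)).add
      (ih fun i hi => h i (Finset.mem_insert_of_mem hi))

theorem HomK.inv {w : Λ} {f : K} (h : HomK 𝒜 w f) : HomK 𝒜 (-w) f⁻¹ := by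
  obtain ⟨k, a, ha, b, hb, hb0, e⟩ := h
  by_cases hf : f = 0
  · rw [hf, _root_.inv_zero]
    exact HomK.zero
  have ha0 : a ≠ 0 := by
    rintro rfl
    rw [map_zero] at e
    rcases mul_eq_zero.1 e with h | h
    · exact map_ne hb0 h
    · exact hf h
  refine ⟨k + w, b, ?_, a, ha, ha0, ?_⟩
  · rwa [add_neg_cancel_right]
  · rw [← e, mul_assoc, mul_inv_cancel₀ hf, mul_one]

theorem HomK.congr {w w' : Λ} {f : K} (h : HomK 𝒜 w f) (e : w = w') : HomK 𝒜 w' f := e ▸ h

theorem HomK.pow {w : Λ} {f : K} (h : HomK 𝒜 w f) (n : ℕ) : HomK 𝒜 (n • w) (f ^ n) := by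
  induction n with
  | zero => rw [zero_smul, pow_zero]; exact HomK.one
  | succ n ih => rw [pow_succ, succ_nsmul]; exact ih.mul h

/-- a homogeneous element divided by a homogeneous one -/
theorem HomK.mem_of {w : Λ} {f : K} (h : HomK 𝒜 w f) {g x : R} {γ : Λ} (hg : g ∈ 𝒜 γ)
    (e : algebraMap R K g * f = algebraMap R K x) : x ∈ 𝒜 (γ + w) := by
  obtain ⟨k, a, ha, b, hb, hb0, e'⟩ := h
  have h1 : b * x = g * a := by
    apply map_inj (K := K)
    rw [map_mul, map_mul, ← e, ← e']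
    ring
  apply div_mem hb hb0
  rw [h1]
  have := SetLike.mul_mem_graded hg ha
  have e1 : γ + (k + w) = k + (γ + w) := by abel
  rwa [e1] at this

/-- a homogeneous regular rational function -/
theorem HomK.mem {w : Λ} {x : R} (h : HomK 𝒜 w (algebraMap R K x)) : x ∈ 𝒜 w := by
  have := h.mem_of (g := 1) (x := x) (γ := 0) SetLike.GradedOne.one_mem (by rw [map_one, one_mul])
  rwa [zero_add] at this

/-- determinants -/
theorem det_mem {ι : Type} [Fintype ι] [DecidableEq ι] {W : Matrix ι ι R} {α β : ι → Λ}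
    (hW : ∀ i j, W i j ∈ 𝒜 (β j - α i)) : W.det ∈ 𝒜 (∑ j, β j - ∑ i, α i) := by
  rw [Matrix.det_apply]
  refine Submodule.sum_mem _ fun σ _ => ?_
  rw [Units.smul_def]
  refine (𝒜 _).toAddSubgroup.zsmul_mem ?_ _
  have h1 : ∏ i, W (σ i) i ∈ 𝒜 (∑ i, (β i - α (σ i))) :=
    SetLike.prod_mem_graded _ _ _ fun i _ => hW _ _
  rw [Finset.sum_sub_distrib, Equiv.sum_comp σ α] at h1
  exact h1

theorem adj_mem {ι : Type} [Fintype ι] [DecidableEq ι] {W : Matrix ι ι R} {α β : ι → Λ}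
    (hW : ∀ i j, W i j ∈ 𝒜 (β j - α i)) (i j : ι) :
    W.adjugate j i ∈ 𝒜 (∑ j, β j - ∑ i, α i + α i - β j) := by
  rw [Matrix.adjugate_apply]
  have h1 : (W.updateRow i (Pi.single j 1)).det ∈
      𝒜 (∑ j, β j - ∑ l, (Function.update α i (β j)) l) := by
    apply det_mem
    intro l m
    by_cases hl : l = i
    · subst hl
      rw [Matrix.updateRow_self, Function.update_self]
      by_cases hm : m = j
      · subst hm
        rw [Pi.single_eq_same, sub_self]
        exact SetLike.GradedOne.one_mem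
      · rw [Pi.single_eq_of_ne hm]
        exact Submodule.zero_mem _
    · rw [Matrix.updateRow_ne hl, Function.update_of_ne hl]
      exact hW l m
  have h2 : ∑ l, (Function.update α i (β j)) l = ∑ i, α i - α i + β j := by
    rw [Finset.sum_update_of_mem (Finset.mem_univ i)]
    have h3 := Finset.add_sum_erase Finset.univ α (Finset.mem_univ i)
    rw [Finset.sdiff_singleton_eq_erase]
    rw [← h3]
    abel
  rw [h2] at h1
  have e : ∑ j, β j - (∑ i, α i - α i + β j) = ∑ j, β j - ∑ i, α i + α i - β j := by abel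
  rwa [e] at h1

end Vale.Agent.P280.H674
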