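import Vale.Agent.P280.T.Ext2

/-!
P280: a homogeneous derivation whose poles at a fixed point lie along one coordinate has no pole,
if the weights do not allow it.
-/

namespace Vale.Agent.P280.H674

open DirectSum Vale.Agent.P280.T Vale.Agent.P280.H127

variable {Λ R : Type} [AddCommGroup Λ] [DecidableEq Λ] [CommRing R] [IsDomain R] [Algebra ℂ R]
variable {𝒜 : Λ → Submodule ℂ R} [GradedAlgebra 𝒜]

/-- **Pole lemma.** `D / g` is a homogeneous derivation of weight `θ` (it lowers weights by `θ`)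
whose poles at the fixed point `q` lie along `u i0 = 0`. If for each `i` either `D (u i) = 0` or
`wt i ≠ θ - k wt i0 + ∑ m l wt l` for all `k ≥ 1` and all `m` with `m i0 = 0`, then `D / g` is
regular at `q`. -/
theorem reg_of_pole [IsNoetherianRing R] {q : R →ₐ[ℂ] ℂ} (hF : Fix 𝒜 q) {n : ℕ}
    {u : Fin n → R} {wt : Fin n → Λ} (G : Gens 𝒜 q u wt) {g : R} {γ : Λ} (hg : g ∈ 𝒜 γ)
    (hg0 : g ≠ 0) (D : R →ₗ[ℂ] R) (hDm : ∀ a b, D (a * b) = a * D b + b * D a) {θ : Λ}
    (hD : ∀ k, ∀ h ∈ 𝒜 k, D h ∈ 𝒜 (k + γ - θ)) {i0 : Fin n} (hu0 : u i0 ≠ 0)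
    (hex : ∃ k s, q s ≠ 0 ∧ s * u i0 ^ k ∈ cond g D)
    (hw : ∀ i, D (u i) = 0 ∨ ∀ (k : ℕ) (m : Fin n → ℕ), 1 ≤ k → m i0 = 0 →
      wt i - θ + k • wt i0 ≠ ∑ l, m l • wt l) :
    ∃ s ∈ 𝒜 0, q s = 1 ∧ s ∈ cond g D := by
  classical
  -- homogeneous denominators
  have hhom : ∀ {k : ℕ} {s : R}, q s ≠ 0 → s * u i0 ^ k ∈ cond g D →
      ∃ s' ∈ 𝒜 0, q s' = 1 ∧ s' * u i0 ^ k ∈ cond g D := by
    intro k s hs hs'
    have h1 : u i0 ^ k ∈ 𝒜 (k • wt i0) := SetLike.pow_mem_graded _ (G.hom i0)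
    have h2 := cond_homogeneous (𝒜 := 𝒜) hg D (fun i h hh => ⟨_, hD i h hh⟩) hs' (k • wt i0)
    have h3 := cp_mul_right 𝒜 h1 s (k • wt i0)
    rw [sub_self] at h3
    refine ⟨(q s)⁻¹ • cp 𝒜 0 s, Submodule.smul_mem _ _ (cp_mem 𝒜 0 s), ?_, ?_⟩
    · rw [map_smul, hF.q_cp, smul_eq_mul, inv_mul_cancel₀ hs]
    · rw [smul_mul_assoc, ← h3, Algebra.smul_def]
      exact Ideal.mul_mem_left _ _ h2
  -- the pole order
  obtain ⟨s1, hs1, hs1'⟩ := Nat.find_spec hex
  have hmin : ∀ j, j < Nat.find hex → ¬ ∃ s, q s ≠ 0 ∧ s * u i0 ^ j ∈ cond g D :=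
    fun j hj => Nat.find_min hex hj
  generalize hk : Nat.find hex = k at hs1' hmin
  obtain ⟨s, hs0, hsq, hs⟩ := hhom hs1 hs1'
  rcases Nat.eq_zero_or_pos k with rfl | hk0
  · rw [pow_zero, mul_one] at hs
    exact ⟨s, hs0, hsq, hs⟩
  exfalso
  obtain ⟨k', rfl⟩ := Nat.exists_eq_succ_of_ne_zero hk0.ne'
  -- the derivation `E = s u ^ k D / g`
  have hEex : ∀ h, ∃ e, s * u i0 ^ (k' + 1) * D h = g * e := fun h => hs h
  choose E0 hE0 using hEex
  let E : R →ₗ[ℂ] R :=
    { toFun := E0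
      map_add' := by
        intro x y
        apply mul_left_cancel₀ hg0
        rw [← hE0, mul_add, ← hE0, ← hE0, map_add, mul_add]
      map_smul' := by
        intro c x
        apply mul_left_cancel₀ hg0
        rw [← hE0, RingHom.id_apply, mul_smul_comm, ← hE0, D.map_smul, mul_smul_comm] }
  have hE : ∀ h, s * u i0 ^ (k' + 1) * D h = g * E h := hE0
  have hEmul : ∀ a b, E (a * b) = a * E b + b * E a := by
    intro x y
    apply mul_left_cancel₀ hg0
    rw [← hE, hDm]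
    linear_combination x * hE y + y * hE x
  have hEdeg : ∀ j, ∀ h ∈ 𝒜 j, E h ∈ 𝒜 (j - θ + (k' + 1) • wt i0) := by
    intro j h hh
    apply div_mem hg hg0
    rw [← hE]
    have h1 : u i0 ^ (k' + 1) ∈ 𝒜 ((k' + 1) • wt i0) :=
      SetLike.pow_mem_graded _ (G.hom i0)
    have h2 := SetLike.mul_mem_graded (SetLike.mul_mem_graded hs0 h1) (hD j h hh)
    have h3 : 0 + (k' + 1) • wt i0 + (j + γ - θ) = γ + (j - θ + (k' + 1) • wt i0) := by
      abel
    rw [h3] at h2
    exact h2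
  have hEu : ∀ i, ∃ t, q t = 1 ∧ u i0 ∣ t * E (u i) := by
    intro i
    rcases hw i with h0 | h0
    · refine ⟨1, map_one q, ?_⟩
      have h1 : E (u i) = 0 := by
        apply mul_left_cancel₀ hg0
        rw [← hE, h0, mul_zero, mul_zero]
      rw [h1, mul_zero]
      exact dvd_zero _
    · have h1 := hEdeg _ _ (G.hom i)
      let C : Set Λ := {w | ∃ m : Fin n → ℕ, m i0 = 0 ∧
        w = wt i - θ + (k' + 1) • wt i0 - ∑ l, m l • wt l}
      have hC0 : ∀ w ∈ C, w ≠ 0 := by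
        rintro w ⟨m, hm, rfl⟩ h2
        exact h0 (k' + 1) m (Nat.succ_pos k') hm (sub_eq_zero.1 h2)
      have hCsub : ∀ w ∈ C, ∀ i ∉ ({i0} : Set (Fin n)), w - wt i ∈ C ∧ w - wt i ≠ 0 := by
        rintro w ⟨m, hm, rfl⟩ j hj
        have hj' : j ≠ i0 := hj
        have h3 : wt i - θ + (k' + 1) • wt i0 - ∑ l, m l • wt l - wt j ∈ C := by
          refine ⟨Function.update m j (m j + 1), ?_, ?_⟩
          · rw [Function.update_of_ne hj'.symm, hm]
          · have h4 : ∑ l, Function.update m j (m j + 1) l • wt l = ∑ l, m l • wt l + wt j := by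
              rw [← Finset.add_sum_erase _ _ (Finset.mem_univ j),
                ← Finset.add_sum_erase (a := j) Finset.univ (fun l => m l • wt l)
                  (Finset.mem_univ j), Function.update_self, add_smul, one_smul]
              have h5 : ∑ l ∈ Finset.univ.erase j, Function.update m j (m j + 1) l • wt l =
                  ∑ l ∈ Finset.univ.erase j, m l • wt l := by
                refine Finset.sum_congr rfl fun l hl => ?_
                rw [Function.update_of_ne (Finset.ne_of_mem_erase hl)]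
              rw [h5]
              abel
            rw [h4]
            abel
        exact ⟨h3, hC0 _ h3⟩
      have hmem : wt i - θ + (k' + 1) • wt i0 ∈ C := ⟨fun _ => 0, rfl, by simp⟩
      obtain ⟨t, ht, ht'⟩ := lemmaA hF G (C := C) (J := {i0}) hCsub hmem h1
        (mem_mx.2 (hF _ (hC0 _ hmem) _ h1))
      rw [Set.image_singleton] at ht'
      exact ⟨t, ht, Ideal.mem_span_singleton.1 ht'⟩
  choose t ht ht' using hEu
  obtain ⟨s', _, hs'1, hs'⟩ := G.gen
  obtain ⟨r, hr1, hr'⟩ := nakayama_step E hEmul hs'1 hs' G.zero (t := ∏ i, t i) (u0 := u i0)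
    (by rw [map_prod]; exact Finset.prod_eq_one (fun i _ => ht i))
    (by
      intro i
      rw [← Finset.mul_prod_erase Finset.univ t (Finset.mem_univ i), mul_comm (t i), mul_assoc]
      exact dvd_mul_of_dvd_right (ht' i) _)
  apply hmin k' (Nat.lt_succ_self k')
  refine ⟨r * s, by rw [map_mul, hr1, one_mul, hsq]; exact one_ne_zero, ?_⟩
  rw [mem_cond]
  intro h
  obtain ⟨y, hy⟩ := hr' h
  refine ⟨y, ?_⟩
  apply mul_left_cancel₀ hu0
  have h1 : u i0 * (r * s * u i0 ^ k' * D h) = r * (s * u i0 ^ (k' + 1) * D h) := by ring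
  rw [h1, hE, mul_left_comm, hy]
  ring

end Vale.Agent.P280.H674
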