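import Vale.Agent.P280.H674.HomK

/-!
P280: the pole lemma for rational fields, with and without a frame of global fields.
-/

namespace Vale.Agent.P280.H674

open DirectSum Matrix Vale.Agent.P280.T Vale.Agent.P280.H127 Vale.Agent.P280.H93
  Vale.Agent.P280.H899

set_option linter.unusedSectionVars false

variable {Λ R : Type} [AddCommGroup Λ] [DecidableEq Λ] [CommRing R] [IsDomain R] [Algebra ℂ R]
variable {K : Type} [Field K] [Algebra R K] [IsFractionRing R K] [Algebra ℂ K]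
  [IsScalarTower ℂ R K]
variable {𝒜 : Λ → Submodule ℂ R} [GradedAlgebra 𝒜]

/-- a rational function is regular at `q` -/
def RegF (q : R →ₐ[ℂ] ℂ) (f : K) : Prop :=
  ∃ r : R, q r ≠ 0 ∧ ∃ y, algebraMap R K r * f = algebraMap R K y

theorem RegF.of (q : R →ₐ[ℂ] ℂ) (x : R) : RegF q (algebraMap R K x) :=
  ⟨1, by rw [map_one]; exact one_ne_zero, x, by rw [map_one, one_mul]⟩

theorem RegF.zero {q : R →ₐ[ℂ] ℂ} : RegF q (0 : K) := by
  have := RegF.of (K := K) q (0 : R)
  rwa [map_zero] at this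

theorem RegF.mul {q : R →ₐ[ℂ] ℂ} {f f' : K} (h : RegF q f) (h' : RegF q f') :
    RegF q (f * f') := by
  obtain ⟨r, hr, y, e⟩ := h
  obtain ⟨r', hr', y', e'⟩ := h'
  refine ⟨r * r', by rw [map_mul]; exact mul_ne_zero hr hr', y * y', ?_⟩
  rw [map_mul, map_mul, ← e, ← e']
  ring

theorem RegF.add {q : R →ₐ[ℂ] ℂ} {f f' : K} (h : RegF q f) (h' : RegF q f') :
    RegF q (f + f') := by
  obtain ⟨r, hr, y, e⟩ := h
  obtain ⟨r', hr', y', e'⟩ := h'
  refine ⟨r * r', by rw [map_mul]; exact mul_ne_zero hr hr', r' * y + r * y', ?_⟩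
  rw [map_mul, map_add, map_mul, map_mul, ← e, ← e']
  ring

theorem RegF.neg {q : R →ₐ[ℂ] ℂ} {f : K} (h : RegF q f) : RegF q (-f) := by
  obtain ⟨r, hr, y, e⟩ := h
  exact ⟨r, hr, -y, by rw [mul_neg, e, map_neg]⟩

theorem RegF.sub {q : R →ₐ[ℂ] ℂ} {f f' : K} (h : RegF q f) (h' : RegF q f') :
    RegF q (f - f') := by
  rw [sub_eq_add_neg]
  exact h.add h'.neg

theorem RegF.sum {ι : Type} (s : Finset ι) {q : R →ₐ[ℂ] ℂ} {f : ι → K}
    (h : ∀ i ∈ s, RegF q (f i)) : RegF q (∑ i ∈ s, f i) := by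
  classical
  induction s using Finset.induction_on with
  | empty => rw [Finset.sum_empty]; exact RegF.zero
  | insert a s ha ih =>
    rw [Finset.sum_insert ha]
    exact (h a (Finset.mem_insert_self _ _)).add
      (ih fun i hi => h i (Finset.mem_insert_of_mem hi))

/-- division by a unit at `q` -/
theorem RegF.of_mul {q : R →ₐ[ℂ] ℂ} {f : K} {r : R} (hr : q r ≠ 0)
    (h : RegF q (algebraMap R K r * f)) : RegF q f := by
  obtain ⟨r', hr', y, e⟩ := h
  refine ⟨r' * r, by rw [map_mul]; exact mul_ne_zero hr' hr, y, ?_⟩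
  rw [map_mul, mul_assoc, e]

/-- `v` is regular at `q` when its values are -/
theorem Reg.apply {q : R →ₐ[ℂ] ℂ} {v : Derivation ℂ R K} (h : Reg q v) (x : R) : RegF q (v x) := by
  obtain ⟨r, hr, h⟩ := h
  exact ⟨r, hr, h x⟩

/-- a field regular on generators is regular -/
theorem reg_of_adjoin {q : R →ₐ[ℂ] ℂ} {v : Derivation ℂ R K} {s : Finset R}
    (hs : Algebra.adjoin ℂ (s : Set R) = ⊤) (h : ∀ x ∈ s, RegF q (v x)) : Reg q v := by
  classical
  have h' : ∀ x : s, ∃ r : R, q r ≠ 0 ∧ ∃ y, algebraMap R K r * v x = algebraMap R K y :=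
    fun x => h x x.2
  choose r hr y hy using h'
  refine ⟨∏ x, r x, by rw [map_prod]; exact Finset.prod_ne_zero_iff.2 fun x _ => hr x, ?_⟩
  intro x
  have hx : x ∈ Algebra.adjoin ℂ (s : Set R) := by rw [hs]; trivial
  induction hx using Algebra.adjoin_induction with
  | mem x hx =>
    have h1 := Finset.mul_prod_erase Finset.univ r (Finset.mem_univ ⟨x, hx⟩)
    rw [← h1]
    refine ⟨y ⟨x, hx⟩ * ∏ z ∈ Finset.univ.erase ⟨x, hx⟩, r z, ?_⟩
    rw [map_mul, map_mul, ← hy ⟨x, hx⟩]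
    ring
  | algebraMap c =>
    refine ⟨0, ?_⟩
    rw [v.map_algebraMap, mul_zero, map_zero]
  | add x z _ _ hx hz =>
    obtain ⟨y1, e1⟩ := hx
    obtain ⟨y2, e2⟩ := hz
    exact ⟨y1 + y2, by rw [map_add, mul_add, e1, e2, map_add]⟩
  | mul x z _ _ hx hz =>
    obtain ⟨y1, e1⟩ := hx
    obtain ⟨y2, e2⟩ := hz
    refine ⟨x * y2 + z * y1, ?_⟩
    rw [v.leibniz, Algebra.smul_def, Algebra.smul_def, map_add, map_mul, map_mul, ← e1, ← e2]
    ring

/-- a homogeneous rational field over a homogeneous denominator -/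
theorem exists_num [Algebra.FiniteType ℂ R] {θ : Λ} {v : Derivation ℂ R K} (hv : HomD 𝒜 θ v) :
    ∃ γ, ∃ g ∈ 𝒜 γ, g ≠ 0 ∧ ∃ D : R →ₗ[ℂ] R, (∀ a b, D (a * b) = a * D b + b * D a) ∧
      (∀ h, algebraMap R K g * v h = algebraMap R K (D h)) ∧
      ∀ k, ∀ h ∈ 𝒜 k, D h ∈ 𝒜 (k + γ - θ) := by
  classical
  obtain ⟨s, hs⟩ := (Algebra.FiniteType.out : (⊤ : Subalgebra ℂ R).FG)
  -- homogeneous generators
  let T : Finset R := s.biUnion fun x => (decompose 𝒜 x).support.image fun i => cp 𝒜 i x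
  have hT : Algebra.adjoin ℂ (T : Set R) = ⊤ := by
    rw [eq_top_iff, ← hs]
    apply Algebra.adjoin_le
    intro x hx
    have h1 : x = ∑ i ∈ (decompose 𝒜 x).support, cp 𝒜 i x :=
      (DirectSum.sum_support_decompose 𝒜 x).symm
    rw [h1]
    refine Subalgebra.sum_mem _ fun i hi => Algebra.subset_adjoin ?_
    exact Finset.mem_biUnion.2 ⟨x, hx, Finset.mem_image.2 ⟨i, hi, rfl⟩⟩
  have hTh : ∀ t : T, ∃ k, (t : R) ∈ 𝒜 k := by
    rintro ⟨t, ht⟩
    obtain ⟨x, -, hx⟩ := Finset.mem_biUnion.1 ht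
    obtain ⟨i, -, rfl⟩ := Finset.mem_image.1 hx
    exact ⟨i, cp_mem 𝒜 i x⟩
  choose kt hkt using hTh
  have hden : ∀ t : T, ∃ k, ∃ a : R, ∃ b ∈ 𝒜 k, b ≠ 0 ∧
      algebraMap R K b * v t = algebraMap R K a := by
    intro t
    obtain ⟨k, a, -, b, hb, hb0, e⟩ := hv _ _ (hkt t)
    exact ⟨k, a, b, hb, hb0, e⟩
  choose kb a b hb hb0 e using hden
  have hg : ∏ t, b t ∈ 𝒜 (∑ t, kb t) := SetLike.prod_mem_graded _ _ _ fun t _ => hb t
  have hg0 : ∏ t, b t ≠ 0 := Finset.prod_ne_zero_iff.2 fun t _ => hb0 t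
  have hall : ∀ x : R, ∃ y, algebraMap R K (∏ t, b t) * v x = algebraMap R K y := by
    intro x
    have hx : x ∈ Algebra.adjoin ℂ (T : Set R) := by rw [hT]; trivial
    induction hx using Algebra.adjoin_induction with
    | mem x hx =>
      have h1 := Finset.mul_prod_erase Finset.univ b (Finset.mem_univ ⟨x, hx⟩)
      rw [← h1]
      refine ⟨a ⟨x, hx⟩ * ∏ z ∈ Finset.univ.erase ⟨x, hx⟩, b z, ?_⟩
      rw [map_mul, map_mul, ← e ⟨x, hx⟩]
      ring
    | algebraMap c =>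
      refine ⟨0, ?_⟩
      rw [v.map_algebraMap, mul_zero, map_zero]
    | add x z _ _ hx hz =>
      obtain ⟨y1, e1⟩ := hx
      obtain ⟨y2, e2⟩ := hz
      exact ⟨y1 + y2, by rw [map_add, mul_add, e1, e2, map_add]⟩
    | mul x z _ _ hx hz =>
      obtain ⟨y1, e1⟩ := hx
      obtain ⟨y2, e2⟩ := hz
      refine ⟨x * y2 + z * y1, ?_⟩
      rw [v.leibniz, Algebra.smul_def, Algebra.smul_def, map_add, map_mul, map_mul, ← e1, ← e2]
      ring
  choose D0 hD0 using hall
  refine ⟨_, _, hg, hg0,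
    { toFun := D0
      map_add' := fun x z => map_inj (K := K) (by
        rw [map_add, ← hD0, ← hD0, ← hD0, map_add, mul_add])
      map_smul' := fun c x => map_inj (K := K) (by
        rw [RingHom.id_apply, Algebra.smul_def c (D0 x), map_mul, ← hD0, ← hD0, v.map_smul,
          ← IsScalarTower.algebraMap_apply, Algebra.smul_def]
        ring) }, ?_, hD0, ?_⟩
  · intro x z
    apply map_inj (K := K)
    change algebraMap R K (D0 (x * z)) = algebraMap R K (x * D0 z + z * D0 x)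
    rw [← hD0, v.leibniz, Algebra.smul_def, Algebra.smul_def, map_add, map_mul, map_mul, ← hD0,
      ← hD0]
    ring
  · intro k h hh
    change D0 h ∈ _
    have h1 := (hv k h hh).mem_of hg (hD0 h)
    have e1 : (∑ t, kb t) + (k - θ) = k + (∑ t, kb t) - θ := by abel
    rwa [e1] at h1

theorem mem_cond_iff {g : R} (hg0 : g ≠ 0) {v : Derivation ℂ R K} {D : R → R}
    (hD : ∀ h, algebraMap R K g * v h = algebraMap R K (D h)) {r : R} :
    r ∈ cond g D ↔ r ∈ cnd v := by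
  rw [mem_cond, mem_cnd]
  refine forall_congr' fun h => ?_
  constructor
  · rintro ⟨y, hy⟩
    refine ⟨y, mul_left_cancel₀ (map_ne (K := K) hg0) ?_⟩
    rw [← map_mul, ← hy, map_mul, ← hD]
    ring
  · rintro ⟨y, hy⟩
    refine ⟨y, map_inj (K := K) ?_⟩
    rw [map_mul, map_mul, ← hy, ← hD]
    ring

variable {q : R →ₐ[ℂ] ℂ} {n : ℕ} {u : Fin n → R} {wt : Fin n → Λ}

/-- **Pole lemma** for rational fields -/
theorem reg_of_pole_K [Algebra.FiniteType ℂ R] (hF : Fix 𝒜 q) (G : Gens 𝒜 q u wt) {θ : Λ}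
    {v : Derivation ℂ R K} (hv : HomD 𝒜 θ v) {i0 : Fin n} (hu0 : u i0 ≠ 0)
    (hex : ∃ k : ℕ, Reg q (algebraMap R K (u i0 ^ k) • v))
    (hw : ∀ i, v (u i) = 0 ∨ ∀ (k : ℕ) (m : Fin n → ℕ), 1 ≤ k → m i0 = 0 →
      wt i - θ + k • wt i0 ≠ ∑ l, m l • wt l) : Reg q v := by
  have : IsNoetherianRing R := Algebra.FiniteType.isNoetherianRing ℂ R
  obtain ⟨γ, g, hg, hg0, D, hDm, hDv, hDh⟩ := exists_num hv
  obtain ⟨k, r, hr, hr'⟩ := hex
  obtain ⟨s, -, hs1, hs⟩ := reg_of_pole hF G hg hg0 D hDm hDh hu0 (i0 := i0)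
    ⟨k, r, hr, (mem_cond_iff hg0 hDv).2 (mem_cnd.2 fun h => by
      obtain ⟨y, hy⟩ := hr' h
      refine ⟨y, ?_⟩
      rw [← hy, Derivation.smul_apply, smul_eq_mul, map_mul, mul_assoc])⟩
    (fun i => (hw i).imp_left fun h0 => map_inj (K := K) (by
      rw [← hDv, h0, mul_zero, map_zero]))
  exact reg_iff.2 ⟨s, (mem_cond_iff hg0 hDv).1 hs, by rw [hs1]; exact one_ne_zero⟩

/-- A homogeneous field regular at a fixed point, whose values at the local parameters have
impossible weights, is zero. -/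
theorem zero_of_reg [Algebra.FiniteType ℂ R] (hF : Fix 𝒜 q) (G : Gens 𝒜 q u wt) {θ : Λ}
    {v : Derivation ℂ R K} (hv : HomD 𝒜 θ v) (hreg : Reg q v)
    (hw : ∀ i, v (u i) = 0 ∨ ∀ m : Fin n → ℕ, wt i - θ ≠ ∑ l, m l • wt l) : v = 0 := by
  classical
  have : IsNoetherianRing R := Algebra.FiniteType.isNoetherianRing ℂ R
  obtain ⟨γ, g, hg, hg0, D, hDm, hDv, hDh⟩ := exists_num hv
  obtain ⟨r0, hr0, hr0'⟩ := reg_iff.1 hreg
  have hr0'' := (mem_cond_iff hg0 hDv).2 hr0
  have h2 := cond_homogeneous (𝒜 := 𝒜) hg D (fun i h hh => ⟨_, hDh i h hh⟩) hr0'' 0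
  -- the regular derivation `E`
  have hEex : ∀ h, ∃ e, cp 𝒜 0 r0 * D h = g * e := fun h => h2 h
  choose E0 hE0 using hEex
  let E : R →ₗ[ℂ] R :=
    { toFun := E0
      map_add' := by
        intro x y
        apply mul_left_cancel₀ hg0
        rw [← hE0, mul_add, ← hE0, ← hE0, map_add, mul_add]
      map_smul' := by
        intro c x
        apply mul_left_cancel₀ hg0
        rw [← hE0, RingHom.id_apply, mul_smul_comm, ← hE0, D.map_smul, mul_smul_comm] }
  have hE : ∀ h, cp 𝒜 0 r0 * D h = g * E h := hE0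
  have hEmul : ∀ a b, E (a * b) = a * E b + b * E a := by
    intro x y
    apply mul_left_cancel₀ hg0
    rw [← hE, hDm]
    linear_combination x * hE y + y * hE x
  have hEdeg : ∀ j, ∀ h ∈ 𝒜 j, E h ∈ 𝒜 (j - θ) := by
    intro j h hh
    apply div_mem hg hg0
    rw [← hE]
    have h2 := SetLike.mul_mem_graded (cp_mem 𝒜 0 r0) (hDh j h hh)
    have h3 : 0 + (j + γ - θ) = γ + (j - θ) := by
      abel
    rw [h3] at h2
    exact h2
  have hEu : ∀ i, E (u i) = 0 := by
    intro i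
    rcases hw i with h0 | h0
    · apply mul_left_cancel₀ hg0
      rw [← hE, mul_zero, map_inj (K := K) (a := D (u i)) (b := 0) (by
        rw [← hDv, h0, mul_zero, map_zero]), mul_zero]
    · let C : Set Λ := {w | ∃ m : Fin n → ℕ, w = wt i - θ - ∑ l, m l • wt l}
      have hC0 : (0 : Λ) ∉ C := by
        rintro ⟨m, hm⟩
        exact h0 m (sub_eq_zero.1 hm.symm)
      have hCsub : ∀ w ∈ C, ∀ i, w - wt i ∈ C := by
        rintro w ⟨m, rfl⟩ j
        refine ⟨Function.update m j (m j + 1), ?_⟩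
        have h4 : ∑ l, Function.update m j (m j + 1) l • wt l = ∑ l, m l • wt l + wt j := by
          rw [← Finset.add_sum_erase _ _ (Finset.mem_univ j),
            ← Finset.add_sum_erase (a := j) Finset.univ (fun l => m l • wt l)
              (Finset.mem_univ j), Function.update_self, add_smul, one_smul]
          have h5 : ∑ l ∈ Finset.univ.erase j, Function.update m j (m j + 1) l • wt l =
              ∑ l ∈ Finset.univ.erase j, m l • wt l := by
            refine Finset.sum_congr rfl fun l hl => ?_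
            rw [Function.update_of_ne (Finset.ne_of_mem_erase hl)]
          rw [h5]
          abel
        rw [h4]
        abel
      have h5 := source hF G hC0 hCsub (w := wt i - θ) ⟨fun _ => 0, by simp⟩
      have h6 := hEdeg _ _ (G.hom i)
      rw [h5] at h6
      exact (Submodule.mem_bot ℂ).1 h6
  obtain ⟨s', _, hs'1, hs'⟩ := G.gen
  obtain ⟨r, hr1, hr'⟩ := nakayama_step E hEmul hs'1 hs' G.zero (t := 1) (u0 := 0) (map_one q)
    (by intro i; rw [hEu, mul_zero])
  have hr1' : r ≠ 0 := by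
    rintro rfl
    rw [map_zero] at hr1
    exact zero_ne_one hr1
  have hcp : cp 𝒜 0 r0 ≠ 0 := by
    intro h
    have := hF.q_cp r0
    rw [h, map_zero] at this
    exact hr0' this.symm
  ext h
  have h7 : E h = 0 := by
    rcases mul_eq_zero.1 (zero_dvd_iff.1 (hr' h)) with h8 | h8
    · exact absurd h8 hr1'
    · exact h8
  have h8 : D h = 0 := by
    have := hE h
    rw [h7, mul_zero] at this
    exact (mul_eq_zero.1 this).resolve_left hcp
  have h9 := hDv h
  rw [h8, map_zero] at h9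
  exact (mul_eq_zero.1 h9).resolve_left (map_ne hg0)

end Vale.Agent.P280.H674
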